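import Crest.Agent.X212.Rz42.Jmp
import Crest.Agent.X212.Lev33.Lat
import Crest.Agent.X212.Lad50.Fin

/-!
# X212 / T layer, R0, part 2: the PL torus (helper42)

`rung0 : LevStmt → IncStmt → TorRec → Rung0Stmt`.
-/

set_option autoImplicit false

open Set Filter Topology Metric

namespace Crest.Agent.X212.Rz42

open Crest.Agent.R096.Ce_537 Crest.Agent.X212.Prd34 Crest.Agent.X212.Srf12 Crest.Agent.X212.Lev33

variable {J : Finset (Fin 3)} {H : V → V}

lemma push (h : IsOpenMap H) {S Q : Set V} {x : V} (hQ : H ⁻¹' Q ∈ 𝓝[H ⁻¹' S] x) :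
    Q ∈ 𝓝[S] (H x) := by
  obtain ⟨O, hO, hs⟩ := mem_nhdsWithin_iff_exists_mem_nhds_inter.1 hQ
  refine mem_nhdsWithin_iff_exists_mem_nhds_inter.2 ⟨_, h.image_mem_nhds hO, ?_⟩
  rintro _ ⟨⟨z, hz, rfl⟩, k⟩
  exact hs ⟨hz, k⟩

lemma lpc_pre (h : Per J H) {S : Set V} (hS : LPC S) : LPC (H ⁻¹' S) := by
  intro x hx W hW
  have hO : IsOpen (interior W ∩ ball x (1 / 2)) := isOpen_interior.inter isOpen_ball
  have hxO : x ∈ interior W ∩ ball x (1 / 2) :=
    ⟨mem_interior_iff_mem_nhds.2 hW, mem_ball_self (by norm_num)⟩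
  have hi : InjOn H (interior W ∩ ball x (1 / 2)) := fun y hy z hz e => by
    refine sub_eq_zero.1 (lat_small ((h.fib _ _).1 e) ?_)
    have := dist_triangle_right y z x
    rw [← dist_eq_norm]
    linarith [mem_ball.1 hy.2, mem_ball.1 hz.2]
  let e := OpenPartialHomeomorph.ofContinuousOpen (hi.toPartialEquiv H _) h.cont.continuousOn
    h.opn hO
  have l : ∀ y ∈ interior W ∩ ball x (1 / 2), e.symm (H y) = y := fun y hy => e.left_inv hy
  obtain ⟨N, h1, h2, h3⟩ := hS (H x) hx _ (h.opn.image_mem_nhds (hO.mem_nhds hxO))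
  have hxN := mem_of_mem_nhdsWithin (s := S) hx h1
  have pc : IsPathConnected (e.symm '' N) :=
    IsPathConnected.image' ⟨H x, hxN, fun _ hy => h3 _ hy⟩
      (e.continuousOn_symm.mono fun y hy => (h2 hy).1)
  refine ⟨e.symm '' N, ?_, ?_, fun y hy => pc.joinedIn _ ⟨H x, hxN, l x hxO⟩ _ hy⟩
  · filter_upwards [mem_nhdsWithin_of_mem_nhds (hO.mem_nhds hxO),
      h.cont.continuousWithinAt.tendsto_nhdsWithin (fun _ k => k) h1] with y a b
    exact ⟨H y, b, l y a⟩
  · rintro _ ⟨y, hy, rfl⟩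
    obtain ⟨⟨z, hz, rfl⟩, k⟩ := h2 hy
    rw [l z hz]
    exact ⟨interior_subset hz.1, k⟩

/-- the lattice as a group -/
def latG (J : Finset (Fin 3)) : AddSubgroup V where
  carrier := lat J
  add_mem' := lat_add
  zero_mem' := lat_zero
  neg_mem' := lat_neg

lemma lat_two {l : V} (hl : l ∈ lat {0, 1}) : l 2 = 0 := (hl 2).2 (by decide)

lemma sec_two (h : Per {0, 1} H) (z : V) : sec H (H z) 2 = z 2 :=
  sub_eq_zero.1 (lat_two (sec_lat h z))

lemma sec_cont (h : Per {0, 1} H) : ContinuousOn (fun y => sec H y 2) (range H) := by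
  rintro _ ⟨z, rfl⟩
  refine ContinuousAt.continuousWithinAt fun N hN => ?_
  rw [sec_two h] at hN
  show ∀ᶠ y in 𝓝 (H z), sec H y 2 ∈ N
  filter_upwards [h.opn.image_mem_nhds ((continuous_apply 2).continuousAt hN)]
  rintro _ ⟨y, hy, rfl⟩
  rw [sec_two h]; exact hy

/-- the periodic incompressible splitting -/
lemma exists_st (hL : LevStmt) (hI : IncStmt) (h : Per {0, 1} H) (c : ℝ) {δ : ℝ} (hδ : 0 < δ) :
    ∃ (A B : Set V) (η : ℝ), η < δ ∧ St (H '' {x | |x 2 - c| < δ}) ∅ A B ∧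
      (∀ x, H x ∈ A → -η ≤ x 2 - c) ∧ (∀ x, H x ∈ B → x 2 - c ≤ η) ∧
      ∀ x (p : Path x x), (∀ t, p t ∈ A ∩ B) → NH (H '' {x | |x 2 - c| < δ}) p →
        NH (A ∩ B) p := by
  set U := H '' {x | |x 2 - c| < δ} with hU
  have oU : IsOpen U := h.opn _ (isOpen_lt (by fun_prop) continuous_const)
  have cw : ContinuousOn (fun y => sec H y 2 - c) U :=
    ((sec_cont h).mono (image_subset_range _ _)).sub continuousOn_const
  set K := H '' Icc ![0, 0, c - δ / 2] ![1, 1, c + δ / 2] with hK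
  have cK : IsCompact K := isCompact_Icc.image h.cont
  have sK : K ⊆ U := image_mono fun x hx => by
    have a : c - δ / 2 ≤ x 2 := hx.1 2
    have b : x 2 ≤ c + δ / 2 := hx.2 2
    show |x 2 - c| < δ
    rw [abs_lt]; constructor <;> linarith
  have mK : ∀ y ∈ U, |sec H y 2 - c| ≤ δ / 2 → y ∈ K := by
    rintro _ ⟨x, -, rfl⟩ hx
    rw [sec_two h, abs_le] at hx
    refine ⟨![Int.fract (x 0), Int.fract (x 1), x 2], ⟨fun i => ?_, fun i => ?_⟩,
      (h.fib _ _).2 fun i => ?_⟩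
    · fin_cases i
      · exact Int.fract_nonneg _
      · exact Int.fract_nonneg _
      · show c - δ / 2 ≤ x 2
        linarith
    · fin_cases i
      · exact (Int.fract_lt_one _).le
      · exact (Int.fract_lt_one _).le
      · show x 2 ≤ c + δ / 2
        linarith
    · fin_cases i
      · exact ⟨fun _ => ⟨-⌊x 0⌋, by simp⟩, fun k => absurd (by decide) k⟩
      · exact ⟨fun _ => ⟨-⌊x 1⌋, by simp⟩, fun k => absurd (by decide) k⟩
      · exact ⟨fun k => absurd k (by decide), fun _ => by simp⟩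
  obtain ⟨A, B, -, -, hs, -, -, -, -, hA, hB⟩ := hL U ∅ U K (fun y => sec H y 2 - c) (fun _ => 1)
    (δ / 2) oU isOpen_empty (empty_subset _) oU Subset.rfl cK sK (half_pos hδ) cw
    continuousOn_const (fun _ k => k.elim) (fun y hy k => Or.inr (mK y hy k)) (fun _ _ => rfl)
    (fun _ _ => ⟨zero_le_one, le_rfl⟩) fun _ _ _ k => k.elim
  have st : St U ∅ A B := by
    refine ⟨hs, disjoint_empty _, ?_, fun _ k => k.elim⟩
    have : A ∩ B ∪ ∅ = K \ (U \ A ∪ U \ B) := by
      rw [union_empty]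
      ext y
      refine ⟨fun k => ⟨mK y (hs.subA k.1) (abs_le.2 ⟨(hA y k.1).le, (hB y k.2).le⟩),
        fun q => q.elim (fun q => q.2 k.1) fun q => q.2 k.2⟩, fun k => ⟨by_contra fun q =>
        k.2 (Or.inl ⟨sK k.1, q⟩), by_contra fun q => k.2 (Or.inr ⟨sK k.1, q⟩)⟩⟩
    rw [this]
    exact cK.diff (hs.clA.union hs.clB)
  obtain ⟨A', B', K', st', -, cK', sK', e, hn⟩ := hI U ∅ (fun _ _ => True) (fun _ k => k.elim)
    (fun _ _ _ _ _ _ _ _ => trivial) (fun _ _ _ _ _ _ _ _ => trivial) A B st trivial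
  obtain ⟨a, ha, hle⟩ := cK'.exists_forall_le' (f := fun y => δ - |sec H y 2 - c|) (a := 0)
    (continuousOn_const.sub (cw.mono sK').abs) fun y hy => by
      obtain ⟨x, hx, rfl⟩ := sK' hy
      rw [sec_two h]; exact sub_pos.2 hx
  have m1 := le_max_left (δ / 2) (δ - a)
  have m2 := le_max_right (δ / 2) (δ - a)
  refine ⟨A', B', max (δ / 2) (δ - a), max_lt (half_lt_self hδ) (by linarith), st',
    fun x hx => ?_, fun x hx => ?_, hn⟩
  · by_cases k : H x ∈ K'
    · have := hle _ k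
      rw [sec_two h] at this
      linarith [neg_abs_le (x 2 - c)]
    · have := hA _ ((e _ k).1.1 hx)
      rw [sec_two h] at this
      linarith
  · by_cases k : H x ∈ K'
    · have := hle _ k
      rw [sec_two h] at this
      linarith [le_abs_self (x 2 - c)]
    · have := hB _ ((e _ k).2.1 hx)
      rw [sec_two h] at this
      linarith

/-- the invariant component and its image -/
lemma exists_tor (hL : LevStmt) (hI : IncStmt) (h : Per {0, 1} H) (c : ℝ) {δ : ℝ} (hδ : 0 < δ) :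
    ∃ C : Set V, Srf C ∅ ∧ C ⊆ H '' {x | |x 2 - c| < δ} ∧ IsConnected (H ⁻¹' C) ∧
      H1 (H ⁻¹' C) := by
  obtain ⟨A, B, η, hη, st, hA, hB, hn⟩ := exists_st hL hI h c hδ
  set Ut : Set V := {x | |x 2 - c| < δ} with hUt
  have pre : H ⁻¹' (H '' Ut) = Ut := by
    refine Subset.antisymm ?_ (subset_preimage_image _ _)
    rintro x ⟨y, hy, e⟩
    have := lat_two ((h.fib _ _).1 e)
    show |x 2 - c| < δ
    rwa [← sub_eq_zero.1 this]
  have lin : IsLinearMap ℝ fun x : V => x 2 := ⟨fun _ _ => rfl, fun _ _ => rfl⟩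
  have cvx : ∀ a b : ℝ, Convex ℝ {x : V | a < x 2 ∧ x 2 < b} := fun a b =>
    (convex_halfSpace_gt lin a).inter (convex_halfSpace_lt lin b)
  have cU : Convex ℝ Ut := by
    convert cvx (c - δ) (c + δ) using 1
    ext x
    simp only [hUt, mem_ofPred_eq, abs_lt]
    constructor <;> rintro ⟨a, b⟩ <;> constructor <;> linarith
  have lp : LPC (H ⁻¹' A ∩ H ⁻¹' B) := lpc_pre h st.spl.lcv.lpc
  set ε := max η 0 with hε
  have e1 : η ≤ ε := le_max_left _ _
  have e2 : 0 ≤ ε := le_max_right _ _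
  have e3 : ε < δ := max_lt hη hδ
  have D : Dat Ut (H ⁻¹' A) (H ⁻¹' B) {x : V | c - δ < x 2 ∧ x 2 < c - ε}
      {x : V | c + ε < x 2 ∧ x 2 < c + δ} ![0, 0, c - (ε + δ) / 2] ![0, 0, c + (ε + δ) / 2]
      (latG {0, 1}) := by
    refine ⟨isOpen_lt (by fun_prop) continuous_const, cU, by rw [← preimage_union, st.spl.union, pre],
      ?_, ?_, fun x hx => (lp.clop x).mem (mem_connectedComponentIn hx), (cvx _ _).isPreconnected,
      (cvx _ _).isPreconnected, fun x hx => ⟨?_, fun k => ?_⟩, fun x hx => ⟨?_, fun k => ?_⟩,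
      fun l hl x => by rw [mem_preimage, per_add h x hl]; rfl,
      fun l hl x => by rw [mem_preimage, per_add h x hl]; rfl, fun l hl => ?_, fun l hl => ?_⟩
    · rw [← pre]; exact st.spl.clA.preimage h.cont
    · rw [← pre]; exact st.spl.clB.preimage h.cont
    · show |x 2 - c| < δ
      exact abs_lt.2 ⟨by linarith [hx.1], by linarith [hx.2]⟩
    · linarith [hA x k, hx.2]
    · show |x 2 - c| < δ
      exact abs_lt.2 ⟨by linarith [hx.1], by linarith [hx.2]⟩
    · linarith [hB x k, hx.1]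
    · have : (![0, 0, c - (ε + δ) / 2] + l : V) 2 = c - (ε + δ) / 2 := by simp [lat_two hl]
      exact ⟨by rw [this]; linarith, by rw [this]; linarith⟩
    · have : (![0, 0, c + (ε + δ) / 2] + l : V) 2 = c + (ε + δ) / 2 := by simp [lat_two hl]
      exact ⟨by rw [this]; linarith, by rw [this]; linarith⟩
  obtain ⟨x, hx, inv⟩ := D.exists_inv
  have cT := lp.clop x
  set T := connectedComponentIn (H ⁻¹' A ∩ H ⁻¹' B) x with hT
  have pT : H ⁻¹' (H '' T) = T := by
    refine Subset.antisymm ?_ (subset_preimage_image _ _)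
    rintro y ⟨z, hz, e⟩
    simpa using inv _ ((h.fib _ _).1 e.symm) z hz
  have sU : A ∩ B ⊆ H '' Ut := fun y hy => st.spl.subA hy.1
  have cC : Clop (A ∩ B) (H '' T) := by
    refine clop_of (image_subset_iff.2 cT.sub) ?_ fun y hy hy' => ?_
    · rintro _ ⟨y, hy, rfl⟩
      exact push h.opn (by rw [pT]; exact cT.mem hy)
    · obtain ⟨z, -, rfl⟩ := sU hy
      exact push h.opn (by
        rw [preimage_compl, pT]; exact cT.notMem hy fun k => hy' ⟨z, k, rfl⟩)
  refine ⟨H '' T, ?_, cC.sub.trans sU, ?_, ?_⟩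
  · have := st.srf
    rw [union_empty] at this
    simpa using Srf.clop this cC
  · rw [pT]; exact isConnected_connectedComponentIn_iff.2 hx
  · rw [pT]
    refine h1_of fun g hg => prim_of_hol (cT.lpc lp) hg fun y p hp => ?_
    have hy : y ∈ T := by simpa using hp 0
    have hTU : T ⊆ Ut := fun z hz => pre.subset (sU (cT.sub hz))
    obtain ⟨F, hF⟩ := convex_homotopy cU p (Path.refl y) (fun t => hTU (hp t)) fun _ => hTU hy
    obtain ⟨G, hG⟩ := hn (H y) (p.map h.cont) (fun t => cT.sub (hp t))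
      ⟨F.map ⟨H, h.cont⟩, fun t => ⟨F t, hF t, rfl⟩⟩
    have k : range G ⊆ H '' T := cC.subset (isPreconnected_range G.continuous)
      (range_subset_iff.2 hG) (x := H y) ⟨(0, 0), by simp⟩ ⟨y, hy, rfl⟩
    obtain ⟨F', hF'⟩ := lift_nh h (image_subset_range H T) p ⟨G, fun t => k ⟨t, rfl⟩⟩
    rw [pT] at hF'
    rw [hol_homotopy hg F' hF', hol_refl hg hy]

/-- a PL torus near every level of a periodic embedding -/
theorem rung_of (hL : LevStmt) (hI : IncStmt) (hT : TorRec) (h : Per {0, 1} H) (c : ℝ) {δ : ℝ}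
    (hδ : 0 < δ) : ∃ u, Rung ∅ {0, 1} H c δ u := by
  obtain ⟨C, h1, h2, h3, h4⟩ := exists_tor hL hI h c hδ
  obtain ⟨u, cu, tu, eu⟩ := hT H C h h1 (h2.trans (image_subset_range _ _)) h3 h4
  have no : ∀ x, x ∉ out ∅ := fun x ⟨i, hi, _⟩ => absurd hi (Finset.notMem_empty i)
  refine ⟨u, cu, fun y y' e => ?_, eu, fun y k => (no _ k).elim, fun y _ => no _, fun y => ?_,
    fun y _ => ⟨1, one_pos, (tu.pl (‖y‖ + 1)).mono fun z hz => ?_⟩⟩
  · have k := (tu.fib y y').1 (by simp only [e])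
    have hl : lv 0 (y - y') ∈ lat {0, 1} := fun i => by
      fin_cases i
      · exact ⟨fun _ => k 0, fun q => absurd (by decide) q⟩
      · exact ⟨fun _ => k 1, fun q => absurd (by decide) q⟩
      · exact ⟨fun q => absurd q (by decide), fun _ => rfl⟩
    have := eu y' _ hl
    rw [add_sub_cancel, e, left_eq_add] at this
    refine sub_eq_zero.1 (funext fun i => ?_)
    fin_cases i
    · exact congrFun this 0
    · exact congrFun this 1
  · obtain ⟨x, hx, e⟩ := h2 (tu.img ▸ ⟨y, rfl⟩ : H (u y) ∈ C)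
    rwa [← sub_eq_zero.1 (lat_two ((h.fib _ _).1 e))]
  · rw [mem_closedBall_zero_iff]
    have := norm_le_norm_add_norm_sub' z y
    rw [mem_ball, dist_eq_norm] at hz
    linarith

/-- **(RUNG0)** -/
theorem rung0 (hL : LevStmt) (hI : IncStmt) (hT : TorRec) : Rung0Stmt :=
  fun _ _ hp _ hh c _ hδ => rung_of hL hI hT (Lad50.per_comp_qq' hp hh) c hδ

end Crest.Agent.X212.Rz42
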