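import Crest.Agent.X212.Lev33.H1

/-!
# X212 / T layer, R0, part 1: an invariant component of a periodic separating surface (helper42)

`U` convex open, split into `A ∪ B`, everything invariant under a group `Λ` of translations,
bottom in `U \ A`, top in `U \ B`.  Then some component of `A ∩ B` is `Λ`-invariant.
-/

set_option autoImplicit false

open Set Filter Topology

namespace Crest.Agent.X212.Rz42

open Crest.Agent.X212.Lev33

section Clop

variable {X : Type*} [TopologicalSpace X] {S Q Q' : Set X}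

lemma clop_self (S : Set X) : Clop S S :=
  clop_of Subset.rfl (fun _ _ => self_mem_nhdsWithin) fun _ h h' => absurd h h'

lemma clop_empty (S : Set X) : Clop S ∅ :=
  clop_of (empty_subset _) (fun _ h => h.elim) fun _ _ _ => by simp

lemma clop_union (h : Clop S Q) (h' : Clop S Q') : Clop S (Q ∪ Q') :=
  ⟨union_subset h.sub h'.sub, fun x hx => by
    filter_upwards [h.lc x hx, h'.lc x hx] with y a b
    simp only [mem_union, a, b]⟩

lemma clop_diff (h : Clop S Q) (h' : Clop S Q') : Clop S (Q \ Q') :=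
  ⟨sdiff_subset.trans h.sub, fun x hx => by
    filter_upwards [h.lc x hx, h'.lc x hx] with y a b
    simp only [Set.mem_sdiff, a, b]⟩

/-- a union of components of a locally connected set is clopen -/
lemma clop_sat (hl : ∀ x ∈ S, connectedComponentIn S x ∈ 𝓝[S] x) (hQ : Q ⊆ S)
    (hs : ∀ x ∈ Q, connectedComponentIn S x ⊆ Q) : Clop S Q :=
  clop_of hQ (fun x hx => mem_of_superset (hl x (hQ hx)) (hs x hx)) fun x hx hx' =>
    mem_of_superset (hl x hx) fun y hy hy' => hx' (hs y hy' (by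
      rw [← connectedComponentIn_eq hy]; exact mem_connectedComponentIn hx))

lemma clop_comp (hl : ∀ x ∈ S, connectedComponentIn S x ∈ 𝓝[S] x) (x : X) :
    Clop S (connectedComponentIn S x) :=
  clop_sat hl (connectedComponentIn_subset _ _) fun _ hy => (connectedComponentIn_eq hy).ge

lemma comp_subset (h : Clop S Q) {x : X} (hx : x ∈ Q) : connectedComponentIn S x ⊆ Q :=
  h.subset isPreconnected_connectedComponentIn (connectedComponentIn_subset _ _)
    (mem_connectedComponentIn (h.sub hx)) hx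

end Clop

variable {E : Type*} [NormedAddCommGroup E] [NormedSpace ℝ E]

open Classical in
/-- the side -/
noncomputable def sd (A : Set E) (x : E) : ℤ := if x ∈ A then 1 else 0

open Classical in
/-- `b` counts the crossings with `Q` -/
def Prm (U A Q : Set E) (b : E → ℤ) : Prop :=
  ∀ x ∈ U, ∀ᶠ y in 𝓝 x, b y = b x + if x ∈ Q then sd A y - sd A x else 0

open Classical in
/-- the jump -/
noncomputable def jp (U A : Set E) (p q : E) (Q : Set E) : ℤ :=
  if h : ∃ b, Prm U A Q b then h.choose q - h.choose p else 0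

/-- the data -/
structure Dat (U A B Bot Top : Set E) (p q : E) (Λ : AddSubgroup E) : Prop where
  op : IsOpen U
  cv : Convex ℝ U
  un : A ∪ B = U
  oA : IsOpen (U \ A)
  oB : IsOpen (U \ B)
  lc : ∀ x ∈ A ∩ B, connectedComponentIn (A ∩ B) x ∈ 𝓝[A ∩ B] x
  cB : IsPreconnected Bot
  cT : IsPreconnected Top
  sB : Bot ⊆ U \ A
  sT : Top ⊆ U \ B
  iA : ∀ l ∈ Λ, ∀ x, x + l ∈ A ↔ x ∈ A
  iB : ∀ l ∈ Λ, ∀ x, x + l ∈ B ↔ x ∈ B
  mp : ∀ l ∈ Λ, p + l ∈ Bot
  mq : ∀ l ∈ Λ, q + l ∈ Top

namespace Dat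

variable {U A B Bot Top : Set E} {p q : E} {Λ : AddSubgroup E} (h : Dat U A B Bot Top p q Λ)
include h

lemma hp : p ∈ Bot := by simpa using h.mp 0 Λ.zero_mem
lemma hq : q ∈ Top := by simpa using h.mq 0 Λ.zero_mem

lemma sub : A ∩ B ⊆ U := fun _ hx => h.un ▸ Or.inl hx.1

lemma off {x : E} (hx : x ∈ U) (hx' : x ∉ A ∩ B) :
    ∀ᶠ y in 𝓝 x, sd A y = sd A x ∧ y ∉ A ∩ B := by
  by_cases a : x ∈ A
  · filter_upwards [h.oB.mem_nhds ⟨hx, fun b => hx' ⟨a, b⟩⟩] with y hy
    have : y ∈ A := (show y ∈ A ∪ B from h.un ▸ hy.1).resolve_right hy.2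
    exact ⟨by simp [sd, a, this], fun k => hy.2 k.2⟩
  · filter_upwards [h.oA.mem_nhds ⟨hx, a⟩] with y hy
    exact ⟨by simp [sd, a, hy.2], fun k => hy.2 k.1⟩

lemma off' {Q : Set E} (hQ : Clop (A ∩ B) Q) {x : E} (hx : x ∈ U) (hx' : x ∉ Q) :
    ∀ᶠ y in 𝓝 x, y ∉ Q := by
  by_cases k : x ∈ A ∩ B
  · filter_upwards [mem_nhdsWithin_iff_eventually.1 (hQ.notMem k hx')] with y hy hy'
    exact hy (hQ.sub hy') hy'
  · filter_upwards [h.off hx k] with y hy hy' using hy.2 (hQ.sub hy')

lemma ex {Q : Set E} (hQ : Clop (A ∩ B) Q) : ∃ b, Prm U A Q b := by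
  classical
  have hc : Coc U (fun x y => Multiplicative.ofAdd (if x ∈ Q then sd A y - sd A x else 0)) := by
    refine coc_of_loc fun x hx => ?_
    by_cases k : x ∈ Q
    · refine ⟨{y | y ∈ U ∧ (y ∈ A ∩ B → y ∈ Q)}, ?_, fun y => Multiplicative.ofAdd (sd A y),
        fun y hy => ?_⟩
      · filter_upwards [self_mem_nhdsWithin, mem_nhdsWithin_of_mem_nhds
          (mem_nhdsWithin_iff_eventually.1 (hQ.mem k))] with y a b using ⟨a, b⟩
      · by_cases k' : y ∈ Q
        · exact Eventually.of_forall fun z => by simp [k']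
        · filter_upwards [mem_nhdsWithin_of_mem_nhds (h.off hy.1 fun c => k' (hy.2 c))] with z hz
          simp [k', hz.1]
    · refine ⟨{y | y ∉ Q}, mem_nhdsWithin_of_mem_nhds (h.off' hQ hx k), fun _ => 1,
        fun y hy => Eventually.of_forall fun z => ?_⟩
      have : y ∉ Q := hy
      simp [this]
  obtain ⟨b, hb⟩ := hc.prim_convex h.cv
  refine ⟨fun x => Multiplicative.toAdd (b x), fun x hx => ?_⟩
  have := hb x hx
  rw [h.op.nhdsWithin_eq hx] at this
  filter_upwards [this] with y hy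
  rw [hy, toAdd_mul, toAdd_ofAdd]

lemma uniq {Q : Set E} {b b' : E → ℤ} (hb : Prm U A Q b) (hb' : Prm U A Q b') {x y : E}
    (hx : x ∈ U) (hy : y ∈ U) : b x - b' x = b y - b' y :=
  LCo.eq (f := fun x => b x - b' x) (fun z hz => by
    filter_upwards [mem_nhdsWithin_of_mem_nhds (hb z hz), mem_nhdsWithin_of_mem_nhds (hb' z hz)]
      with w a c
    rw [a, c]; ring) h.cv.isPreconnected hx hy

lemma jp_eq {Q : Set E} {b : E → ℤ} (hb : Prm U A Q b) : jp U A p q Q = b q - b p := by
  have k : ∃ b, Prm U A Q b := ⟨b, hb⟩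
  rw [jp, dif_pos k]
  linarith [h.uniq k.choose_spec hb (h.sB h.hp).1 (h.sT h.hq).1]

omit h [NormedSpace ℝ E] in
lemma const {Q C : Set E} {b : E → ℤ} (hb : Prm U A Q b) (hC : IsPreconnected C) (hU : C ⊆ U)
    (hd : ∀ x ∈ C, x ∉ Q) {x y : E} (hx : x ∈ C) (hy : y ∈ C) : b x = b y :=
  LCo.eq (f := b) (fun z hz => by
    filter_upwards [mem_nhdsWithin_of_mem_nhds (hb z (hU hz))] with w a
    rw [a, if_neg (hd z hz), add_zero]) hC hx hy

lemma jp_union {Q Q' : Set E} (hQ : Clop (A ∩ B) Q) (hQ' : Clop (A ∩ B) Q') (hd : Disjoint Q Q') :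
    jp U A p q (Q ∪ Q') = jp U A p q Q + jp U A p q Q' := by
  obtain ⟨b, hb⟩ := h.ex hQ
  obtain ⟨b', hb'⟩ := h.ex hQ'
  have : Prm U A (Q ∪ Q') (fun x => b x + b' x) := fun x hx => by
    filter_upwards [hb x hx, hb' x hx] with y a c
    rw [a, c]
    by_cases k : x ∈ Q
    · have k' : x ∉ Q' := disjoint_left.1 hd k
      simp only [k, k', mem_union, true_or, if_true, if_false]; ring
    · by_cases k' : x ∈ Q' <;> simp only [k, k', mem_union, or_true, or_false, if_true, if_false] <;>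
        ring
  rw [h.jp_eq this, h.jp_eq hb, h.jp_eq hb']; ring

lemma jp_all : jp U A p q (A ∩ B) = 1 := by
  have : Prm U A (A ∩ B) (sd A) := fun x hx => by
    by_cases k : x ∈ A ∩ B
    · exact Eventually.of_forall fun y => by rw [if_pos k]; ring
    · filter_upwards [h.off hx k] with y hy
      rw [if_neg k, hy.1, add_zero]
  have a : q ∈ A := (show q ∈ A ∪ B from h.un ▸ (h.sT h.hq).1).resolve_right (h.sT h.hq).2
  rw [h.jp_eq this]
  simp [sd, a, (h.sB h.hp).2]

lemma jp_zero {Q : Set E} (hQ : Clop (A ∩ B) Q) (hd : ∀ x ∈ segment ℝ p q, x ∉ Q) :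
    jp U A p q Q = 0 := by
  obtain ⟨b, hb⟩ := h.ex hQ
  rw [h.jp_eq hb, const hb (convex_segment p q).isPreconnected
    (h.cv.segment_subset (h.sB h.hp).1 (h.sT h.hq).1) hd (left_mem_segment _ _ _)
    (right_mem_segment _ _ _), sub_self]

lemma sd_shift {l : E} (hl : l ∈ Λ) (y : E) : sd A (y + l) = sd A y := by
  unfold sd; rw [h.iA l hl]

lemma prm_shift {Q : Set E} {b : E → ℤ} (hb : Prm U A Q b) {l : E} (hl : l ∈ Λ) :
    Prm U A {x | x + l ∈ Q} (fun x => b (x + l)) := fun x hx => by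
  have hx' : x + l ∈ U := by
    rw [← h.un] at hx ⊢
    exact hx.imp (h.iA l hl x).2 (h.iB l hl x).2
  filter_upwards [((continuous_add_const l).tendsto x).eventually (hb _ hx')] with y hy
  simpa only [h.sd_shift hl, mem_ofPred_eq] using hy

lemma bot_eq {Q : Set E} (hQ : Q ⊆ A ∩ B) {b : E → ℤ} (hb : Prm U A Q b) {l : E} (hl : l ∈ Λ) :
    b (p + l) = b p :=
  const hb h.cB (fun _ hx => (h.sB hx).1) (fun _ hx k => (h.sB hx).2 (hQ k).1) (h.mp l hl) h.hp

lemma jp_shift {Q : Set E} (hQ : Clop (A ∩ B) Q) {l : E} (hl : l ∈ Λ) :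
    jp U A p q {x | x + l ∈ Q} = jp U A p q Q := by
  obtain ⟨b, hb⟩ := h.ex hQ
  rw [h.jp_eq (h.prm_shift hb hl), h.jp_eq hb, h.bot_eq hQ.sub hb hl, const hb h.cT
    (fun _ hx => (h.sT hx).1) (fun _ hx k => (h.sT hx).2 (hQ.sub k).2) (h.mq l hl) h.hq]

lemma bound {Q : Set E} (hQ : Q ⊆ A ∩ B) {b : E → ℤ} (hb : Prm U A Q b) {a : ℤ}
    (ha : ∀ x ∈ Q, b x - sd A x = a) {x : E} (hx : x ∈ Q) : |b q - b p| ≤ 1 := by
  have s01 : ∀ y, sd A y = 0 ∨ sd A y = 1 := fun y => by unfold sd; split_ifs <;> simp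
  have key : ∀ y ∈ U, (b x = a ∨ b x = a + 1) = (b y = a ∨ b y = a + 1) := fun y hy =>
    LCo.eq (f := fun y => b y = a ∨ b y = a + 1) (fun z hz => by
      filter_upwards [mem_nhdsWithin_of_mem_nhds (hb z hz)] with w e
      by_cases k : z ∈ Q
      · rw [if_pos k] at e
        have := ha z k
        have := s01 z
        have := s01 w
        exact propext ⟨fun _ => by omega, fun _ => by omega⟩
      · rw [if_neg k, add_zero] at e
        rw [e]) h.cv.isPreconnected (h.sub (hQ hx)) hy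
  have k0 : b x = a ∨ b x = a + 1 := by have := ha x hx; have := s01 x; omega
  have k1 := key p (h.sB h.hp).1 ▸ k0
  have k2 := key q (h.sT h.hq).1 ▸ k0
  rw [abs_le]; omega

/-- finitely many components matter -/
lemma fin {Q : Set E} (hQ : Clop (A ∩ B) Q) (P : ℤ → Prop) (P0 : P 0)
    (Pa : ∀ m n, P m → P n → P (m + n))
    (hP : ∀ x ∈ Q, P (jp U A p q (connectedComponentIn (A ∩ B) x))) : P (jp U A p q Q) := by
  classical
  have hs : segment ℝ p q ⊆ U := h.cv.segment_subset (h.sB h.hp).1 (h.sT h.hq).1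
  have hsc : IsCompact (segment ℝ p q) := by
    rw [segment_eq_image']
    exact isCompact_Icc.image (by fun_prop)
  have hK : IsCompact (segment ℝ p q ∩ Q) := by
    have : segment ℝ p q ∩ Q = segment ℝ p q \ interior Qᶜ := by
      ext x
      refine ⟨fun k => ⟨k.1, fun c => interior_subset c k.2⟩, fun k => ⟨k.1, by_contra fun c =>
        k.2 (mem_interior_iff_mem_nhds.2 (h.off' hQ (hs k.1) c))⟩⟩
    rw [this]; exact hsc.diff isOpen_interior
  obtain ⟨t, ht, hcov⟩ := hK.elim_nhdsWithin_subcover (fun x => connectedComponentIn (A ∩ B) x)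
    fun x hx => nhdsWithin_mono x (inter_subset_right.trans hQ.sub) (h.lc x (hQ.sub hx.2))
  have key : ∀ s : Finset E, (∀ x ∈ s, x ∈ Q) →
      Clop (A ∩ B) (⋃ x ∈ s, connectedComponentIn (A ∩ B) x) ∧
        P (jp U A p q (⋃ x ∈ s, connectedComponentIn (A ∩ B) x)) := by
    intro s
    induction s using Finset.induction_on with
    | empty =>
      intro _
      simp only [Finset.notMem_empty, iUnion_of_empty, iUnion_empty]
      exact ⟨clop_empty _, by rw [h.jp_zero (clop_empty _) fun _ _ k => k]; exact P0⟩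
    | insert x s hx ih =>
      intro hs
      obtain ⟨i1, i2⟩ := ih fun y hy => hs y (Finset.mem_insert_of_mem hy)
      have c := clop_comp h.lc x
      rw [Finset.set_biUnion_insert]
      refine ⟨clop_union c i1, ?_⟩
      by_cases k : x ∈ ⋃ x ∈ s, connectedComponentIn (A ∩ B) x
      · rwa [union_eq_right.2 (comp_subset i1 k)]
      · rw [h.jp_union c i1 (disjoint_left.2 fun y a b => k (comp_subset i1 b (by
          rw [← connectedComponentIn_eq a]
          exact mem_connectedComponentIn (hQ.sub (hs x (Finset.mem_insert_self _ _))))))]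
        exact Pa _ _ (hP x (hs x (Finset.mem_insert_self _ _))) i2
  obtain ⟨k1, k2⟩ := key t fun x hx => (ht x hx).2
  have hsub : ⋃ x ∈ t, connectedComponentIn (A ∩ B) x ⊆ Q :=
    iUnion₂_subset fun x hx => comp_subset hQ (ht x hx).2
  rw [← union_sdiff_cancel hsub, h.jp_union k1 (clop_diff hQ k1) disjoint_sdiff_right,
    h.jp_zero (clop_diff hQ k1) fun x hx k => k.2 (hcov ⟨hx, k.1⟩), add_zero]
  exact k2

lemma comp_shift {x l : E} (hl : l ∈ Λ) :
    {y | y + l ∈ connectedComponentIn (A ∩ B) (x + l)} = connectedComponentIn (A ∩ B) x := by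
  have key : ∀ l ∈ Λ, ∀ x y : E, y ∈ connectedComponentIn (A ∩ B) x →
      y + l ∈ connectedComponentIn (A ∩ B) (x + l) := fun l hl x y hy => by
    have hx := connectedComponentIn_nonempty_iff.1 ⟨y, hy⟩
    refine (isPreconnected_connectedComponentIn.image (fun z => z + l)
      (continuous_add_const l).continuousOn).subset_connectedComponentIn
      ⟨x, mem_connectedComponentIn hx, rfl⟩ ?_ ⟨y, hy, rfl⟩
    rintro _ ⟨z, hz, rfl⟩
    have := connectedComponentIn_subset _ _ hz
    exact ⟨(h.iA l hl z).2 this.1, (h.iB l hl z).2 this.2⟩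
  ext y
  exact ⟨fun hy => by simpa using key (-l) (Λ.neg_mem hl) _ _ hy, key l hl x y⟩

/-- **an invariant component** -/
theorem exists_inv : ∃ x ∈ A ∩ B, ∀ l ∈ Λ, ∀ y ∈ connectedComponentIn (A ∩ B) x,
    y + l ∈ connectedComponentIn (A ∩ B) x := by
  obtain ⟨x, hx, hj⟩ : ∃ x ∈ A ∩ B, jp U A p q (connectedComponentIn (A ∩ B) x) ≠ 0 := by
    by_contra hc
    push Not at hc
    have := h.fin (clop_self _) (· = 0) rfl (fun m n a b => by rw [a, b]; rfl) hc
    rw [h.jp_all] at this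
    exact one_ne_zero this
  set T := connectedComponentIn (A ∩ B) x with hT
  set ε := jp U A p q T with hε
  have hxT : x ∈ T := mem_connectedComponentIn hx
  have hsh : ∀ l ∈ Λ, x + l ∈ A ∩ B := fun l hl => ⟨(h.iA l hl x).2 hx.1, (h.iB l hl x).2 hx.2⟩
  have hjl : ∀ l ∈ Λ, jp U A p q (connectedComponentIn (A ∩ B) (x + l)) = ε := fun l hl => by
    rw [← h.jp_shift (clop_comp h.lc (x + l)) hl, h.comp_shift hl]
  -- the orbit
  set O : Set E := {y | ∃ l ∈ Λ, y ∈ connectedComponentIn (A ∩ B) (x + l)} with hO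
  have hOs : O ⊆ A ∩ B := fun y ⟨l, _, hy⟩ => connectedComponentIn_subset _ _ hy
  have hOc : Clop (A ∩ B) O := clop_sat h.lc hOs fun y ⟨l, hl, hy⟩ z hz =>
    ⟨l, hl, by rwa [connectedComponentIn_eq hy]⟩
  have hOi : ∀ l ∈ Λ, {y | y + l ∈ O} = O := fun l hl => by
    ext y
    constructor
    · rintro ⟨m, hm, hy⟩
      refine ⟨m - l, Λ.sub_mem hm hl, ?_⟩
      rw [← h.comp_shift hl, show x + (m - l) + l = x + m by abel]
      exact hy
    · rintro ⟨m, hm, hy⟩
      refine ⟨m + l, Λ.add_mem hm hl, ?_⟩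
      rw [← h.comp_shift hl] at hy
      simpa [add_assoc] using hy
  obtain ⟨b, hb⟩ := h.ex hOc
  have hbl : ∀ l ∈ Λ, b (x + l) = b x := fun l hl => by
    have k := h.prm_shift hb hl
    rw [hOi l hl] at k
    have := h.uniq k hb (h.sub hx) (h.sB h.hp).1
    rw [h.bot_eq hOs hb hl] at this
    omega
  have hle : |jp U A p q O| ≤ 1 := by
    rw [h.jp_eq hb]
    refine h.bound hOs hb (a := b x - sd A x) (x := x) ?_ ⟨0, Λ.zero_mem, by simpa using hxT⟩
    rintro y ⟨l, hl, hy⟩
    have : b y - sd A y = b (x + l) - sd A (x + l) :=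
      LCo.eq (f := fun y => b y - sd A y) (fun z hz => by
        have hz' : z ∈ O := ⟨l, hl, hz⟩
        filter_upwards [mem_nhdsWithin_of_mem_nhds (hb z (h.sub (hOs hz')))] with w e
        rw [e, if_pos hz']; ring) isPreconnected_connectedComponentIn hy
        (mem_connectedComponentIn (hsh l hl))
    rw [this, hbl l hl, h.sd_shift hl]
  have main : ∀ l ∈ Λ, x + l ∈ T := fun l hl => by
    by_contra hc
    have c1 : Clop (A ∩ B) T := clop_comp h.lc x
    have c2 := clop_comp h.lc (x + l)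
    have hd : Disjoint T (connectedComponentIn (A ∩ B) (x + l)) := disjoint_left.2 fun y a c =>
      hc (comp_subset c1 a (by
        rw [← connectedComponentIn_eq c]; exact mem_connectedComponentIn (hsh l hl)))
    have hsub : T ∪ connectedComponentIn (A ∩ B) (x + l) ⊆ O :=
      union_subset (fun y hy => ⟨0, Λ.zero_mem, by simpa using hy⟩) fun y hy => ⟨l, hl, hy⟩
    have c3 := clop_diff hOc (clop_union c1 c2)
    have r := h.fin c3 (fun n => 0 ≤ ε * n) (by simp) (fun m n a b => by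
      rw [mul_add]; exact add_nonneg a b) (fun y ⟨⟨m, hm, hy⟩, _⟩ => by
      rw [← connectedComponentIn_eq hy, hjl m hm]; exact mul_self_nonneg ε)
    rw [← union_sdiff_cancel hsub, h.jp_union (clop_union c1 c2) c3 disjoint_sdiff_right,
      h.jp_union c1 c2 hd, hjl l hl, abs_le, ← hε] at hle
    rcases lt_or_gt_of_ne hj with k | k
    · have : jp U A p q (O \ (T ∪ connectedComponentIn (A ∩ B) (x + l))) ≤ 0 := by nlinarith
      omega
    · have : 0 ≤ jp U A p q (O \ (T ∪ connectedComponentIn (A ∩ B) (x + l))) := by nlinarith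
      omega
  refine ⟨x, hx, fun l hl y hy => ?_⟩
  rw [← h.comp_shift hl] at hy
  rw [connectedComponentIn_eq (main l hl)]
  exact hy

end Dat

end Crest.Agent.X212.Rz42
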